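import Mathlib

namespace Vale.Agent.P344B

open Matrix Finset

/-- A form of the Cauchy-Binet formula for `det (Bᴴ B)`. -/
theorem factorial_mul_det_conjTranspose_mul {n : ℕ} {ι : Type} [Fintype ι] [DecidableEq ι]
    (B : Matrix ι (Fin n) ℂ) :
    (n.factorial : ℂ) * (Bᴴ * B).det =
      ∑ f : Fin n → ι, star (B.submatrix f id).det * (B.submatrix f id).det := by
  have h1 : (Bᴴ * B).det =
      ∑ f : Fin n → ι, (∏ i, star (B (f i) i)) * (B.submatrix f id).det := by
    have e1 : (Bᴴ * B).det = (Matrix.detRowAlternating (R := ℂ) (n := Fin n))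
        (fun i => ∑ p : ι, star (B p i) • B p) := by
      rw [Matrix.detRowAlternating]
      change (Bᴴ * B).det = Matrix.det _
      congr 1
      ext i j
      simp [Matrix.mul_apply, Finset.sum_apply]
    rw [e1]
    rw [← AlternatingMap.coe_multilinearMap, MultilinearMap.map_sum]
    refine Finset.sum_congr rfl fun f _ => ?_
    rw [MultilinearMap.map_smul_univ]
    simp only [smul_eq_mul]
    rfl
  have h2 : ∀ σ : Equiv.Perm (Fin n), (Bᴴ * B).det =
      ∑ f : Fin n → ι, ((Equiv.Perm.sign σ : ℤ) : ℂ) * (∏ i, star (B (f (σ i)) i)) *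
        (B.submatrix f id).det := by
    intro σ
    rw [h1]
    rw [← Equiv.sum_comp (Equiv.arrowCongr σ.symm (Equiv.refl ι))]
    refine Finset.sum_congr rfl fun f _ => ?_
    have e2 : (B.submatrix (f ∘ σ) id) = (B.submatrix f id).submatrix σ id := by
      ext i j; rfl
    have e3 : (Equiv.arrowCongr σ.symm (Equiv.refl ι)) f = f ∘ σ := by
      ext i; simp
    rw [e3, e2, Matrix.det_permute]
    simp only [Function.comp]
    ring
  have h3 : (n.factorial : ℂ) * (Bᴴ * B).det =
      ∑ σ : Equiv.Perm (Fin n), (Bᴴ * B).det := by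
    rw [Finset.sum_const, Finset.card_univ, Fintype.card_perm, Fintype.card_fin, nsmul_eq_mul]
  rw [h3]
  rw [Finset.sum_congr rfl fun σ _ => h2 σ, Finset.sum_comm]
  refine Finset.sum_congr rfl fun f _ => ?_
  rw [← Finset.sum_mul]
  congr 1
  rw [Matrix.det_apply, star_sum]
  refine Finset.sum_congr rfl fun σ _ => ?_
  rw [Units.smul_def, zsmul_eq_mul, star_mul', star_prod]
  simp

theorem norm_det_conjTranspose_mul_le {n : ℕ} {ι : Type} [Fintype ι] [DecidableEq ι]
    (B : Matrix ι (Fin n) ℂ) {D : ℝ}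
    (hB : ∀ f : Fin n → ι, ‖(B.submatrix f id).det‖ ≤ D) :
    ‖(Bᴴ * B).det‖ ≤ ((Fintype.card ι).choose n : ℝ) * D ^ 2 := by
  have h := congrArg norm (factorial_mul_det_conjTranspose_mul B)
  rw [norm_mul, Complex.norm_natCast] at h
  have h1 : (n.factorial : ℝ) * ‖(Bᴴ * B).det‖ ≤
      ((Fintype.card ι).descFactorial n : ℝ) * D ^ 2 := by
    rw [h]
    refine (norm_sum_le _ _).trans ?_
    have h2 : ∀ f : Fin n → ι, ‖star (B.submatrix f id).det * (B.submatrix f id).det‖ ≤
        if Function.Injective f then D ^ 2 else 0 := by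
      intro f
      have h0 : 0 ≤ D := (norm_nonneg _).trans (hB f)
      split_ifs with hf
      · rw [norm_mul, norm_star, sq]
        exact mul_le_mul (hB f) (hB f) (norm_nonneg _) h0
      · have : (B.submatrix f id).det = 0 := by
          rw [Function.Injective] at hf
          push Not at hf
          obtain ⟨i, j, hij, hne⟩ := hf
          exact Matrix.det_zero_of_row_eq hne (by ext a; simp [Matrix.submatrix_apply, hij])
        rw [this]; simp
    refine (Finset.sum_le_sum fun f _ => h2 f).trans ?_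
    rw [Finset.sum_ite, Finset.sum_const_zero, add_zero, Finset.sum_const, nsmul_eq_mul]
    refine le_of_eq ?_
    congr 2
    rw [← Fintype.card_subtype, ← Fintype.card_congr (Equiv.subtypeInjectiveEquivEmbedding _ _).symm,
      Fintype.card_embedding_eq, Fintype.card_fin]
  rw [Nat.descFactorial_eq_factorial_mul_choose, Nat.cast_mul, mul_assoc] at h1
  exact le_of_mul_le_mul_left h1 (by positivity)

theorem norm_det_one_add_le {n : ℕ} (A : Matrix (Fin n) (Fin n) ℂ) {D : ℝ}
    (hA : ∀ f : Fin n → Fin n → ℂ, (∀ i, (∃ j, f i = Pi.single j 1) ∨ (∃ j, f i = A j)) →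
      ‖(Matrix.of f).det‖ ≤ D) :
    ‖(1 + Aᴴ * A).det‖ ≤ 4 ^ n * D ^ 2 := by
  have h := norm_det_conjTranspose_mul_le (Matrix.fromRows (1 : Matrix (Fin n) (Fin n) ℂ) A)
    (D := D) ?_
  · rw [Matrix.conjTranspose_fromRows_eq_fromCols_conjTranspose, Matrix.fromCols_mul_fromRows,
      Matrix.conjTranspose_one, one_mul] at h
    refine h.trans ?_
    refine mul_le_mul_of_nonneg_right ?_ (sq_nonneg _)
    have : (Fintype.card (Fin n ⊕ Fin n)).choose n = Nat.centralBinom n := by
      rw [Nat.centralBinom, Fintype.card_sum, Fintype.card_fin, two_mul]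
    rw [this]
    have h2 : Nat.centralBinom n ≤ 4 ^ n := by
      rw [Nat.centralBinom]
      calc (2 * n).choose n ≤ 2 ^ (2 * n) := Nat.choose_le_two_pow _ _
        _ = 4 ^ n := by rw [pow_mul]; norm_num
    exact_mod_cast h2
  · intro f
    have := hA (fun i => (Matrix.fromRows (1 : Matrix (Fin n) (Fin n) ℂ) A) (f i)) ?_
    · exact this
    · intro i
      rcases hfi : f i with j | j
      · left
        refine ⟨j, ?_⟩
        ext a
        simp [Matrix.one_apply, Pi.single_apply, eq_comm]
      · right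
        exact ⟨j, by ext a; simp⟩

end Vale.Agent.P344B
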