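import Mathlib

/-! Linear circuits (straight-line programs) for the discrete Fourier transform. -/

namespace Vale.Agent.P344B

/-- A gate of a linear circuit with scalars in `R`.  The natural numbers are positions in the
list of the values available so far (the inputs come first, then the values of the earlier
gates); a position beyond the end of the list refers to the constant `0`. -/
inductive Gate (R : Type) where
  | add (i j : ℕ)
  | sub (i j : ℕ)
  | scale (c : R) (i : ℕ)

/-- The value computed by a gate from the list `l` of the values available so far. -/
def Gate.value {R M : Type} [Ring R] [AddCommGroup M] [Module R M] (l : List M) : Gate R → M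
  | .add i j => l.getD i 0 + l.getD j 0
  | .sub i j => l.getD i 0 - l.getD j 0
  | .scale c i => c • l.getD i 0

/-- Run the gates of a circuit one after the other; the value of each gate is appended to the
list of the available values. -/
def run {R M : Type} [Ring R] [AddCommGroup M] [Module R M] : List (Gate R) → List M → List M
  | [], l => l
  | g :: gs, l => run gs (l ++ [g.value l])

/-- The circuit `gs`, with outputs at the positions `out`, computes the unnormalized discrete
Fourier transform of order `n` exactly, on every input. -/
def Computes (n : ℕ) (gs : List (Gate ℂ)) (out : Fin n → ℕ) : Prop :=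
  ∀ (x : Fin n → ℂ) (j : Fin n),
    (run gs (List.ofFn x)).getD (out j) 0 =
      ∑ k : Fin n, Complex.exp (2 * Real.pi * Complex.I / n) ^ ((j : ℕ) * (k : ℕ)) * x k

/-- The archimedean height (base 2) of an algebraic number: `(log₂ M(P)) / deg P`, where `P` is
the (monic) minimal polynomial over `ℚ` and `M` is the Mahler measure, i.e. the mean of
`log₂ max(1, |c'|)` over the conjugates `c'` of `c`.  It is at most the absolute logarithmic
Weil height of `c` (base 2). -/
noncomputable def archHeight (c : ℂ) : ℝ :=
  Real.logb 2 ((minpoly ℚ c).map (algebraMap ℚ ℂ)).mahlerMeasure / (minpoly ℚ c).natDegree

/-- Replace the scalars of a gate. -/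
def Gate.map {R S : Type} (f : R → S) : Gate R → Gate S
  | .add i j => .add i j
  | .sub i j => .sub i j
  | .scale c i => .scale (f c) i

/-- The cost of a gate: additions and subtractions cost `1`, a multiplication by a scalar `c`
which is `good` costs the archimedean height of `c`, other multiplications by scalars are
free. -/
noncomputable def Gate.cost (good : ℂ → Prop) [DecidablePred good] : Gate ℂ → ℝ
  | .add _ _ => 1
  | .sub _ _ => 1
  | .scale c _ => if good c then archHeight c else 0

/-- `1` for a multiplication by a scalar which is not `good`, `0` for all other gates. -/
def Gate.free (good : ℂ → Prop) [DecidablePred good] : Gate ℂ → ℕ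
  | .add _ _ => 0
  | .sub _ _ => 0
  | .scale c _ => if good c then 0 else 1

end Vale.Agent.P344B
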