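import Vale.Agent.P344B.Defs

namespace Vale.Agent.P344B

open Matrix Module IntermediateField Polynomial

/-- Descent of a low rank factorization. -/
theorem exists_factor {K : Type} [Field K] [Algebra K ℂ] {n k : ℕ}
    (R : Matrix (Fin n) (Fin n) K) (H : Submodule ℂ (Fin n → ℂ)) (hH : finrank ℂ H ≤ k)
    (hR : ∀ i, (fun j => algebraMap K ℂ (R i j)) ∈ H) :
    ∃ m ≤ k, ∃ (P : Matrix (Fin n) (Fin m) K) (V : Matrix (Fin m) (Fin n) K), R = P * V := by
  let S : Submodule K (Fin n → K) := Submodule.span K (Set.range fun i => R i)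
  let b := Module.finBasis K S
  have hmem : ∀ w ∈ S, (fun j => algebraMap K ℂ (w j)) ∈ H := by
    intro w hw
    induction hw using Submodule.span_induction with
    | mem w hw =>
      obtain ⟨i, rfl⟩ := hw
      exact hR i
    | zero =>
      have : (fun j : Fin n => algebraMap K ℂ ((0 : Fin n → K) j)) = 0 := by ext; simp
      rw [this]; exact H.zero_mem
    | add x y _ _ hx hy =>
      have : (fun j : Fin n => algebraMap K ℂ ((x + y) j)) =
        (fun j => algebraMap K ℂ (x j)) + (fun j => algebraMap K ℂ (y j)) := by ext; simp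
      rw [this]; exact H.add_mem hx hy
    | smul a x _ hx =>
      have : (fun j : Fin n => algebraMap K ℂ ((a • x) j)) =
        (algebraMap K ℂ a) • (fun j => algebraMap K ℂ (x j)) := by ext; simp
      rw [this]; exact H.smul_mem _ hx
  have hli : LinearIndependent K (fun i => ((b i : S) : Fin n → K)) :=
    b.linearIndependent.map' S.subtype (Submodule.ker_subtype S)
  have hliC : LinearIndependent ℂ (fun i => algebraMap K ℂ ∘ ((b i : S) : Fin n → K)) :=
    linearIndependent_algebraMap_comp_iff.mpr hli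
  have hliH : LinearIndependent ℂ (fun i => (⟨algebraMap K ℂ ∘ ((b i : S) : Fin n → K),
      hmem _ (b i).2⟩ : H)) := by
    apply LinearIndependent.of_comp H.subtype
    exact hliC
  have hcard := hliH.fintype_card_le_finrank
  rw [Fintype.card_fin] at hcard
  refine ⟨finrank K S, hcard.trans hH,
    Matrix.of fun i j => b.repr ⟨R i, Submodule.subset_span ⟨i, rfl⟩⟩ j,
    Matrix.of fun j a => (b j : Fin n → K) a, ?_⟩
  ext i a
  have h := congrArg (fun w : S => (w : Fin n → K) a)
    (b.sum_repr ⟨R i, Submodule.subset_span ⟨i, rfl⟩⟩)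
  simp only [Submodule.coe_sum, Finset.sum_apply, Submodule.coe_smul, Pi.smul_apply,
    smul_eq_mul] at h
  rw [Matrix.mul_apply]
  exact h.symm

theorem sum_embeddings_powerBasis {F L : Type} [Field F] [CharZero F] [Algebra F ℂ]
    [Field L] [Algebra F L] (pb : PowerBasis F L)
    (φ : ℂ → ℝ) [Fintype (L →ₐ[F] ℂ)] :
    ∑ σ : L →ₐ[F] ℂ, φ (σ pb.gen) = (((minpoly F pb.gen).aroots ℂ).map φ).sum := by
  classical
  have hsep : (minpoly F pb.gen).Separable :=
    (minpoly.irreducible pb.isIntegral_gen).separable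
  rw [Fintype.sum_equiv pb.liftEquiv' (fun σ => φ (σ pb.gen)) (fun x => φ x)
    (fun σ => by rw [PowerBasis.liftEquiv'_apply_coe])]
  rw [Finset.sum_mem_multiset _ _ φ (fun _ => rfl), Finset.sum_eq_multiset_sum,
    Multiset.toFinset_val, Multiset.dedup_eq_self.mpr]
  exact nodup_roots (hsep.map)

theorem sum_embeddings {F K : Type} [Field F] [CharZero F] [Algebra F ℂ] [Field K]
    [Algebra F K] [FiniteDimensional F K] (c : K) (φ : ℂ → ℝ) :
    ∑ σ : K →ₐ[F] ℂ, φ (σ c) =
      (finrank F⟮c⟯ K : ℝ) * (((minpoly F c).aroots ℂ).map φ).sum := by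
  classical
  have hc : IsIntegral F c := Algebra.IsIntegral.isIntegral c
  let pb := adjoin.powerBasis hc
  have hgen : algebraMap F⟮c⟯ K pb.gen = c := by
    rw [adjoin.powerBasis_gen]; exact AdjoinSimple.algebraMap_gen F c
  have hmin : minpoly F pb.gen = minpoly F c := by
    rw [adjoin.powerBasis_gen]; exact minpoly_gen F c
  have hpb := sum_embeddings_powerBasis pb φ
  rw [hmin] at hpb
  rw [← hpb]
  rw [Fintype.sum_equiv algHomEquivSigma (fun σ : K →ₐ[F] ℂ => _) (fun σ => φ (σ.1 pb.gen)),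
    ← Finset.univ_sigma_univ, Finset.sum_sigma, Finset.mul_sum]
  · refine Finset.sum_congr rfl fun σ _ => ?_
    let : Algebra F⟮c⟯ ℂ := σ.toRingHom.toAlgebra
    simp_rw [Finset.sum_const, nsmul_eq_mul]
    congr 2
    exact AlgHom.card F⟮c⟯ K ℂ
  · intro σ
    simp only [algHomEquivSigma, Equiv.coe_fn_mk, AlgHom.domRestrict, AlgHom.comp_apply,
      IsScalarTower.coe_toAlgHom', hgen]

theorem sum_logb_embeddings {K : Type} [Field K] [Algebra ℚ K] [FiniteDimensional ℚ K]
    [Algebra K ℂ] [IsScalarTower ℚ K ℂ] (c : K) :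
    ∑ σ : K →ₐ[ℚ] ℂ, Real.logb 2 (max 1 ‖σ c‖) =
      (finrank ℚ K : ℝ) * archHeight (algebraMap K ℂ c) := by
  have hc : IsIntegral ℚ c := Algebra.IsIntegral.isIntegral c
  rw [sum_embeddings c (fun z => Real.logb 2 (max 1 ‖z‖)), archHeight]
  have hmin : minpoly ℚ (algebraMap K ℂ c) = minpoly ℚ c :=
    minpoly.algebraMap_eq (algebraMap K ℂ).injective c
  rw [hmin]
  have hmonic := minpoly.monic hc
  have hM : ((minpoly ℚ c).map (algebraMap ℚ ℂ)).mahlerMeasure =
      (((minpoly ℚ c).aroots ℂ).map (fun a ↦ max 1 ‖a‖)).prod := by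
    rw [mahlerMeasure_eq_leadingCoeff_mul_prod_roots, (hmonic.map _).leadingCoeff, norm_one,
      one_mul]
  have hlog : Real.logb 2 ((minpoly ℚ c).map (algebraMap ℚ ℂ)).mahlerMeasure =
      (((minpoly ℚ c).aroots ℂ).map (fun a => Real.logb 2 (max 1 ‖a‖))).sum := by
    rw [hM]
    induction (minpoly ℚ c).aroots ℂ using Multiset.induction_on with
    | empty => simp
    | cons a s ih =>
      rw [Multiset.map_cons, Multiset.prod_cons, Multiset.map_cons, Multiset.sum_cons,
        Real.logb_mul, ih]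
      · positivity
      · apply ne_of_gt
        apply Multiset.prod_pos
        intro x hx
        rw [Multiset.mem_map] at hx
        obtain ⟨y, _, rfl⟩ := hx
        positivity
  rw [hlog]
  have hdeg : (finrank ℚ K : ℝ) = (minpoly ℚ c).natDegree * (finrank ℚ⟮c⟯ K : ℝ) := by
    rw [← Module.finrank_mul_finrank ℚ ℚ⟮c⟯ K, adjoin.finrank hc]
    push_cast; rfl
  have hpos : (0 : ℝ) < (minpoly ℚ c).natDegree := by
    exact_mod_cast minpoly.natDegree_pos hc
  rw [hdeg]
  field_simp

end Vale.Agent.P344B
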