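import Mathlib

namespace Vale.Agent.P344B

open Matrix

theorem star_dotProduct_self_eq {n : ℕ} (z : Fin n → ℂ) :
    star z ⬝ᵥ z = ((∑ i, ‖z i‖ ^ 2 : ℝ) : ℂ) := by
  rw [dotProduct, Complex.ofReal_sum]
  refine Finset.sum_congr rfl fun i _ => ?_
  rw [Pi.star_apply, Complex.star_def, Complex.conj_mul']
  push_cast
  rfl

/-- If `A = F - P V` with `Fᴴ F = n` and `V` having `m` rows, then
`det (1 + Aᴴ A) ≥ (1 + n)^(n - m)`. -/
theorem pow_le_norm_det_one_add {n m : ℕ} (A F : Matrix (Fin n) (Fin n) ℂ)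
    (P : Matrix (Fin n) (Fin m) ℂ) (V : Matrix (Fin m) (Fin n) ℂ)
    (hA : A = F - P * V) (hF : Fᴴ * F = (n : ℂ) • (1 : Matrix (Fin n) (Fin n) ℂ)) :
    ((1 : ℝ) + n) ^ (n - m) ≤ ‖(1 + Aᴴ * A).det‖ := by
  have hH : (1 + Aᴴ * A).IsHermitian := by
    refine Matrix.IsHermitian.add Matrix.isHermitian_one ?_
    exact Matrix.isHermitian_conjTranspose_mul_self A
  set ev := hH.eigenvalues with hev
  obtain ⟨U, hU⟩ : ∃ U : Matrix (Fin n) (Fin n) ℂ, U = (hH.eigenvectorUnitary : Matrix _ _ ℂ) :=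
    ⟨_, rfl⟩
  have hUU : Uᴴ * U = 1 := by
    rw [hU, ← Matrix.star_eq_conjTranspose]
    exact Unitary.coe_star_mul_self _
  have hspec : Uᴴ * (1 + Aᴴ * A) * U = Matrix.diagonal (fun i => ((ev i : ℝ) : ℂ)) := by
    have := hH.conjStarAlgAut_star_eigenvectorUnitary
    rw [Unitary.conjStarAlgAut_star_apply] at this
    rw [hU, ← Matrix.star_eq_conjTranspose]
    exact this
  -- the quadratic form
  have hnU : ∀ c : Fin n → ℂ, ∑ i, ‖(U *ᵥ c) i‖ ^ 2 = ∑ i, ‖c i‖ ^ 2 := by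
    intro c
    have h1 := star_dotProduct_self_eq (U *ᵥ c)
    rw [Matrix.star_mulVec, ← Matrix.dotProduct_mulVec, Matrix.mulVec_mulVec, hUU,
      Matrix.one_mulVec, star_dotProduct_self_eq] at h1
    exact_mod_cast h1.symm
  have Q : ∀ c : Fin n → ℂ, ∑ i, ev i * ‖c i‖ ^ 2 =
      ∑ i, ‖c i‖ ^ 2 + ∑ j, ‖(A *ᵥ (U *ᵥ c)) j‖ ^ 2 := by
    intro c
    have h1 : star c ⬝ᵥ ((Uᴴ * (1 + Aᴴ * A) * U) *ᵥ c) =
        ((∑ i, ev i * ‖c i‖ ^ 2 : ℝ) : ℂ) := by
      rw [hspec, dotProduct, Complex.ofReal_sum]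
      refine Finset.sum_congr rfl fun i _ => ?_
      rw [Matrix.mulVec_diagonal, Pi.star_apply, Complex.star_def, Complex.ofReal_mul,
        Complex.ofReal_pow, ← Complex.conj_mul']
      ring
    have h2 : star c ⬝ᵥ ((Uᴴ * (1 + Aᴴ * A) * U) *ᵥ c) =
        star (U *ᵥ c) ⬝ᵥ (U *ᵥ c) + star (A *ᵥ (U *ᵥ c)) ⬝ᵥ (A *ᵥ (U *ᵥ c)) := by
      rw [← Matrix.mulVec_mulVec, ← Matrix.mulVec_mulVec, Matrix.add_mulVec, Matrix.one_mulVec,
        Matrix.mulVec_add, dotProduct_add]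
      congr 1
      · rw [Matrix.dotProduct_mulVec, ← Matrix.star_mulVec]
      · rw [Matrix.dotProduct_mulVec, ← Matrix.star_mulVec, ← Matrix.mulVec_mulVec,
          Matrix.dotProduct_mulVec, ← Matrix.star_mulVec]
    rw [h1, star_dotProduct_self_eq, star_dotProduct_self_eq, hnU] at h2
    exact_mod_cast h2
  have hge1 : ∀ i, 1 ≤ ev i := by
    intro i
    have h := Q (Pi.single i 1)
    have e1 : ∑ j, ev j * ‖(Pi.single i 1 : Fin n → ℂ) j‖ ^ 2 = ev i := by
      rw [Finset.sum_eq_single i]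
      · simp
      · intro j _ hj; simp [Pi.single_eq_of_ne hj]
      · intro h; exact absurd (Finset.mem_univ i) h
    have e2 : ∑ j, ‖(Pi.single i 1 : Fin n → ℂ) j‖ ^ 2 = 1 := by
      rw [Finset.sum_eq_single i]
      · simp
      · intro j _ hj; simp [Pi.single_eq_of_ne hj]
      · intro h; exact absurd (Finset.mem_univ i) h
    rw [e1, e2] at h
    have : 0 ≤ ∑ j, ‖(A *ᵥ (U *ᵥ (Pi.single i 1 : Fin n → ℂ))) j‖ ^ 2 :=
      Finset.sum_nonneg fun _ _ => sq_nonneg _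
    linarith
  -- few small eigenvalues
  have hcard : Fintype.card {i // ev i < 1 + n} ≤ m := by
    by_contra hlt
    push Not at hlt
    obtain ⟨W, hW⟩ : ∃ W : Matrix (Fin m) {i // ev i < 1 + n} ℂ,
      W = (V * U).submatrix id Subtype.val := ⟨_, rfl⟩
    have hker : LinearMap.ker W.mulVecLin ≠ ⊥ := by
      apply LinearMap.ker_ne_bot_of_finrank_lt
      rw [Module.finrank_fintype_fun_eq_card, Module.finrank_fintype_fun_eq_card,
        Fintype.card_fin]
      exact hlt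
    obtain ⟨c, hc, hc0⟩ := (Submodule.ne_bot_iff _).mp hker
    rw [LinearMap.mem_ker, Matrix.mulVecLin_apply] at hc
    obtain ⟨d, hd⟩ : ∃ d : Fin n → ℂ, d = fun i => if h : ev i < 1 + n then c ⟨i, h⟩ else 0 :=
      ⟨_, rfl⟩
    have hdval : ∀ i : {i // ev i < 1 + n}, d i.1 = c i := by
      intro i; rw [hd]; simp [i.2]
    have hVd : V *ᵥ (U *ᵥ d) = 0 := by
      rw [Matrix.mulVec_mulVec, ← hc]
      ext a
      rw [Matrix.mulVec, Matrix.mulVec, dotProduct, dotProduct]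
      have : ∑ i, (V * U) a i * d i =
          ∑ i ∈ Finset.univ.filter (fun i => ev i < 1 + n), (V * U) a i * d i := by
        rw [Finset.sum_filter]
        refine Finset.sum_congr rfl fun i _ => ?_
        split_ifs with h
        · rfl
        · rw [hd]; simp [h]
      rw [this, Finset.sum_subtype (p := fun i => ev i < 1 + n) _ (by simp)]
      refine Finset.sum_congr rfl fun i _ => ?_
      rw [hdval, hW, Matrix.submatrix_apply, id]
    have hAd : A *ᵥ (U *ᵥ d) = F *ᵥ (U *ᵥ d) := by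
      rw [hA, Matrix.sub_mulVec, ← Matrix.mulVec_mulVec (M := P), hVd, Matrix.mulVec_zero,
        sub_zero]
    have hFd : ∑ j, ‖(F *ᵥ (U *ᵥ d)) j‖ ^ 2 = n * ∑ i, ‖d i‖ ^ 2 := by
      have h1 := star_dotProduct_self_eq (F *ᵥ (U *ᵥ d))
      rw [Matrix.star_mulVec, ← Matrix.dotProduct_mulVec, Matrix.mulVec_mulVec, hF,
        Matrix.smul_mulVec, Matrix.one_mulVec, dotProduct_smul, star_dotProduct_self_eq,
        hnU, smul_eq_mul] at h1
      exact_mod_cast h1.symm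
    have hQ := Q d
    rw [hAd, hFd] at hQ
    have hlt2 : ∑ i, ev i * ‖d i‖ ^ 2 < ∑ i, (1 + n : ℝ) * ‖d i‖ ^ 2 := by
      obtain ⟨i0, hi0⟩ : ∃ i, c i ≠ 0 := by
        by_contra hall
        push Not at hall
        exact hc0 (funext hall)
      refine Finset.sum_lt_sum ?_ ⟨i0.1, Finset.mem_univ _, ?_⟩
      · intro i _
        by_cases h : ev i < 1 + n
        · exact mul_le_mul_of_nonneg_right h.le (sq_nonneg _)
        · rw [hd]; simp [h]
      · refine mul_lt_mul_of_pos_right i0.2 ?_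
        rw [hdval]
        exact pow_pos (norm_pos_iff.mpr hi0) 2
    rw [← Finset.mul_sum] at hlt2
    linarith
  -- conclusion
  rw [hH.det_eq_prod_eigenvalues, norm_prod]
  have h1 : ∏ i : Fin n, (if ev i < 1 + n then (1 : ℝ) else 1 + n) ≤
      ∏ i : Fin n, ‖((ev i : ℝ) : ℂ)‖ := by
    refine Finset.prod_le_prod (fun i _ => ?_) fun i _ => ?_
    · split_ifs <;> positivity
    · rw [Complex.norm_real, Real.norm_of_nonneg (zero_le_one.trans (hge1 i))]
      split_ifs with h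
      · exact hge1 i
      · exact not_lt.mp h
  refine le_trans ?_ h1
  rw [Finset.prod_ite, Finset.prod_const_one, one_mul, Finset.prod_const]
  refine pow_le_pow_right₀ (by linarith [(Nat.cast_nonneg n : (0 : ℝ) ≤ n)]) ?_
  have h2 := Finset.card_filter_add_card_filter_not (s := (Finset.univ : Finset (Fin n)))
    (fun i => ev i < 1 + n)
  rw [Finset.card_univ, Fintype.card_fin, ← Fintype.card_subtype] at h2
  omega

end Vale.Agent.P344B
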