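import Vale.Agent.P344B.Defs

/-! Morgenstern's volume argument. -/

namespace Vale.Agent.P344B

open Matrix

/-- Growth factor of a gate. -/
noncomputable def Gate.growth : Gate ℂ → ℝ
  | .add _ _ => 2
  | .sub _ _ => 2
  | .scale c _ => max 1 ‖c‖

theorem Gate.one_le_growth (g : Gate ℂ) : 1 ≤ g.growth := by
  cases g <;> simp [Gate.growth]

/-- All determinants formed with the vectors of `l` (and zero) are bounded by `D`. -/
def DetBound {n : ℕ} (l : List (Fin n → ℂ)) (D : ℝ) : Prop :=
  ∀ f : Fin n → Fin n → ℂ, (∀ i, f i ∈ l ∨ f i = 0) → ‖(Matrix.of f).det‖ ≤ D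

theorem getD_mem_or {M : Type} [Zero M] (l : List M) (i : ℕ) : l.getD i 0 ∈ l ∨ l.getD i 0 = 0 := by
  rw [List.getD_eq_getElem?_getD]
  rcases h : l[i]? with _ | a
  · right; rfl
  · left
    simp only [Option.getD_some]
    exact List.mem_of_getElem? h

theorem DetBound.step {n : ℕ} {l : List (Fin n → ℂ)} {D : ℝ} (hD : 0 ≤ D) (h : DetBound l D)
    (g : Gate ℂ) : DetBound (l ++ [g.value l]) (g.growth * D) := by
  intro f hf
  have hmono : D ≤ g.growth * D := le_mul_of_one_le_left hD g.one_le_growth
  by_cases hall : ∀ i, f i ∈ l ∨ f i = 0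
  · exact (h f hall).trans hmono
  push Not at hall
  obtain ⟨i, hi1, hi2⟩ := hall
  have hfi : f i = g.value l := by
    rcases hf i with h1 | h1
    · rw [List.mem_append] at h1
      rcases h1 with h1 | h1
      · exact absurd h1 hi1
      · simpa using h1
    · exact absurd h1 hi2
  by_cases hdup : ∃ j, j ≠ i ∧ f j = f i
  · obtain ⟨j, hj, hji⟩ := hdup
    have : (Matrix.of f).det = 0 := Matrix.det_zero_of_row_eq hj (show (Matrix.of f) j = (Matrix.of f) i from hji)
    rw [this, norm_zero]
    exact hD.trans hmono
  push Not at hdup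
  have hoth : ∀ j, j ≠ i → (f j ∈ l ∨ f j = 0) := by
    intro j hj
    rcases hf j with h1 | h1
    · rw [List.mem_append] at h1
      rcases h1 with h1 | h1
      · exact Or.inl h1
      · exact absurd (by rw [hfi]; simpa using h1) (hdup j hj)
    · exact Or.inr h1
  have key : ∀ v : Fin n → ℂ, (v ∈ l ∨ v = 0) → ‖((Matrix.of f).updateRow i v).det‖ ≤ D := by
    intro v hv
    refine h (Function.update f i v) ?_
    intro j
    by_cases hj : j = i
    · subst hj; simpa using hv
    · rw [Function.update_of_ne hj]; exact hoth j hj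
  have hself : Matrix.of f = (Matrix.of f).updateRow i (g.value l) := by
    rw [← hfi]
    exact (Matrix.updateRow_eq_self (Matrix.of f) i).symm
  rw [hself]
  cases g with
  | add a b =>
    simp only [Gate.value, Gate.growth]
    rw [Matrix.det_updateRow_add]
    refine (norm_add_le _ _).trans ?_
    have := key _ (getD_mem_or l a)
    have := key _ (getD_mem_or l b)
    linarith
  | sub a b =>
    simp only [Gate.value, Gate.growth]
    rw [sub_eq_add_neg, Matrix.det_updateRow_add, ← neg_one_smul ℂ (l.getD b 0),
      Matrix.det_updateRow_smul]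
    refine (norm_add_le _ _).trans ?_
    have := key _ (getD_mem_or l a)
    have := key _ (getD_mem_or l b)
    rw [norm_mul, norm_neg, norm_one, one_mul]
    linarith
  | scale c a =>
    simp only [Gate.value, Gate.growth]
    rw [Matrix.det_updateRow_smul, norm_mul]
    have h1 := key _ (getD_mem_or l a)
    exact mul_le_mul (le_max_right _ _) h1 (norm_nonneg _) (by positivity)

theorem DetBound.run {n : ℕ} (gs : List (Gate ℂ)) : ∀ {l : List (Fin n → ℂ)} {D : ℝ},
    0 ≤ D → DetBound l D → DetBound (run gs l) ((gs.map Gate.growth).prod * D) := by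
  induction gs with
  | nil => intro l D hD h; simpa [P344B.run] using h
  | cons g gs ih =>
    intro l D hD h
    have h1 := ih (l := l ++ [g.value l]) (D := g.growth * D)
      (mul_nonneg (zero_le_one.trans g.one_le_growth) hD) (h.step hD g)
    rw [List.map_cons, List.prod_cons, mul_assoc, mul_left_comm]
    exact h1

/-- The list of the standard basis vectors. -/
def stdList (R : Type) [Zero R] [One R] (n : ℕ) : List (Fin n → R) :=
  List.ofFn fun i => Pi.single i 1

theorem detBound_stdList (n : ℕ) : DetBound (stdList ℂ n) 1 := by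
  intro f hf
  by_cases h0 : ∃ i, f i = 0
  · obtain ⟨i, hi⟩ := h0
    rw [Matrix.det_eq_zero_of_row_eq_zero i (by intro j; simp [hi])]
    simp
  push Not at h0
  have h1 : ∀ i, ∃ j : Fin n, f i = Pi.single j 1 := by
    intro i
    rcases hf i with h | h
    · rw [stdList, List.mem_ofFn] at h
      obtain ⟨j, hj⟩ := h
      exact ⟨j, hj.symm⟩
    · exact absurd h (h0 i)
  choose s hs using h1
  have hM : Matrix.of f = (1 : Matrix (Fin n) (Fin n) ℂ).submatrix s id := by
    ext i j
    simp [hs, Matrix.one_apply, Pi.single_apply, eq_comm]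
  rw [hM]
  by_cases hinj : Function.Injective s
  · have hb : Function.Bijective s := Finite.injective_iff_bijective.mp hinj
    have := Matrix.det_permute (Equiv.ofBijective s hb) (1 : Matrix (Fin n) (Fin n) ℂ)
    simp only [Matrix.det_one, mul_one] at this
    have h2 : ((1 : Matrix (Fin n) (Fin n) ℂ).submatrix s id).det =
      ((Equiv.Perm.sign (Equiv.ofBijective s hb) : ℤ) : ℂ) := this
    rw [h2]
    rcases Int.units_eq_one_or (Equiv.Perm.sign (Equiv.ofBijective s hb)) with h | h <;> simp [h]
  · rw [Function.Injective] at hinj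
    push Not at hinj
    obtain ⟨i, j, hij, hne⟩ := hinj
    rw [Matrix.det_zero_of_row_eq hne (by ext a; rw [Matrix.submatrix_apply, Matrix.submatrix_apply, hij])]
    simp

end Vale.Agent.P344B
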