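import Vale.Agent.P344B.Defs
import Vale.Agent.P344B.Binet
import Vale.Agent.P344B.Morg
import Vale.Agent.P344B.Lower
import Vale.Agent.P344B.Field

namespace Vale.Agent.P344B

open Matrix Module IntermediateField

/-! ### Runs and maps -/

theorem getD_snoc {M : Type} [Zero M] (l : List M) (v : M) (p : ℕ) :
    (l ++ [v]).getD p 0 = if p < l.length then l.getD p 0 else if p = l.length then v else 0 := by
  split_ifs with h1 h2
  · rw [List.getD_append _ _ _ _ h1]
  · subst h2
    rw [List.getD_append_right _ _ _ _ le_rfl]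
    simp
  · rw [List.getD_eq_default]
    rw [List.length_append, List.length_singleton]
    omega

theorem run_map {R S M N : Type} [Ring R] [Ring S] [AddCommGroup M] [Module R M]
    [AddCommGroup N] [Module S N] (σ : R →+* S) (Φ : M →+ N)
    (hΦ : ∀ (c : R) (v : M), Φ (c • v) = σ c • Φ v) (gs : List (Gate R)) :
    ∀ l : List M, run (gs.map (Gate.map σ)) (l.map Φ) = (run gs l).map Φ := by
  induction gs with
  | nil => intro l; rfl
  | cons g gs ih =>
    intro l
    have hget : ∀ i, (l.map Φ).getD i 0 = Φ (l.getD i 0) := by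
      intro i
      rw [← map_zero Φ, List.getD_map]
    have h1 : (g.map σ).value (l.map Φ) = Φ (g.value l) := by
      cases g with
      | add i j => simp only [Gate.map, Gate.value, hget, map_add]
      | sub i j => simp only [Gate.map, Gate.value, hget, map_sub]
      | scale c i => simp only [Gate.map, Gate.value, hget, hΦ]
    rw [List.map_cons, run, run, h1, ← ih, List.map_append, List.map_cons, List.map_nil]

theorem mem_run {R M : Type} [Ring R] [AddCommGroup M] [Module R M] (gs : List (Gate R)) :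
    ∀ (l : List M) (v : M), v ∈ l → v ∈ run gs l := by
  induction gs with
  | nil => intro l v h; exact h
  | cons g gs ih =>
    intro l v h
    exact ih _ _ (List.mem_append_left _ h)

theorem gate_map_id (g : Gate ℂ) : g.map (RingHom.id ℂ) = g := by
  cases g <;> rfl

/-- Set the scalars which are not good to zero. -/
noncomputable def kill (good : ℂ → Prop) [DecidablePred good] (c : ℂ) : ℂ := if good c then c else 0

theorem run_diff {M : Type} [AddCommGroup M] [Module ℂ M] [FiniteDimensional ℂ M]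
    (good : ℂ → Prop) [DecidablePred good] (gs : List (Gate ℂ)) :
    ∀ (l1 l2 : List M) (H : Submodule ℂ M), l1.length = l2.length →
      (∀ p, l1.getD p 0 - l2.getD p 0 ∈ H) →
      ∃ H' : Submodule ℂ M, finrank ℂ H' ≤ finrank ℂ H + (gs.map (Gate.free good)).sum ∧
        ∀ p, (run gs l1).getD p 0 - (run (gs.map (Gate.map (kill good))) l2).getD p 0 ∈ H' := by
  induction gs with
  | nil =>
    intro l1 l2 H _ h
    exact ⟨H, by simp, h⟩
  | cons g gs ih =>
    intro l1 l2 H hlen h
    have hsnoc : ∀ (H1 : Submodule ℂ M) (v1 v2 : M), H ≤ H1 → v1 - v2 ∈ H1 →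
        ∀ p, (l1 ++ [v1]).getD p 0 - (l2 ++ [v2]).getD p 0 ∈ H1 := by
      intro H1 v1 v2 hle hv p
      rw [getD_snoc, getD_snoc, ← hlen]
      split_ifs with h1 h2
      · exact hle (h p)
      · exact hv
      · simp
    have hlen' : ∀ v1 v2 : M, (l1 ++ [v1]).length = (l2 ++ [v2]).length := by
      intro v1 v2; simp [hlen]
    cases g with
    | add i j =>
      have hv : (Gate.add i j : Gate ℂ).value l1 -
          ((Gate.add i j : Gate ℂ).map (kill good)).value l2 ∈ H := by
        simp only [Gate.map, Gate.value]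
        have := H.add_mem (h i) (h j)
        convert this using 1
        abel
      obtain ⟨H', h1, h2⟩ := ih _ _ H (hlen' _ _) (hsnoc H _ _ le_rfl hv)
      exact ⟨H', by simpa [Gate.free] using h1, h2⟩
    | sub i j =>
      have hv : (Gate.sub i j : Gate ℂ).value l1 -
          ((Gate.sub i j : Gate ℂ).map (kill good)).value l2 ∈ H := by
        simp only [Gate.map, Gate.value]
        have := H.sub_mem (h i) (h j)
        convert this using 1
        abel
      obtain ⟨H', h1, h2⟩ := ih _ _ H (hlen' _ _) (hsnoc H _ _ le_rfl hv)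
      exact ⟨H', by simpa [Gate.free] using h1, h2⟩
    | scale c i =>
      by_cases hc : good c
      · have hv : (Gate.scale c i : Gate ℂ).value l1 -
            ((Gate.scale c i : Gate ℂ).map (kill good)).value l2 ∈ H := by
          simp only [Gate.map, Gate.value, kill, if_pos hc]
          rw [← smul_sub]
          exact H.smul_mem _ (h i)
        obtain ⟨H', h1, h2⟩ := ih _ _ H (hlen' _ _) (hsnoc H _ _ le_rfl hv)
        exact ⟨H', by simpa [Gate.free, hc] using h1, h2⟩
      · obtain ⟨v, hv⟩ : ∃ v, v = (Gate.scale c i : Gate ℂ).value l1 := ⟨_, rfl⟩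
        have hv' : (Gate.scale c i : Gate ℂ).value l1 -
            ((Gate.scale c i : Gate ℂ).map (kill good)).value l2 ∈
              H ⊔ Submodule.span ℂ {v} := by
          simp only [Gate.map, kill, if_neg hc]
          rw [show (Gate.scale (0 : ℂ) i).value l2 = 0 by simp [Gate.value], sub_zero, ← hv]
          exact Submodule.mem_sup_right (Submodule.mem_span_singleton_self v)
        obtain ⟨H', h1, h2⟩ := ih _ _ (H ⊔ Submodule.span ℂ {v}) (hlen' _ _)
          (hsnoc _ _ _ le_sup_left hv')
        refine ⟨H', h1.trans ?_, h2⟩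
        have h3 := Submodule.finrank_add_le_finrank_add_finrank H (Submodule.span ℂ {v})
        have h4 : finrank ℂ (Submodule.span ℂ {v}) ≤ 1 := by
          simpa using finrank_span_le_card (R := ℂ) ({v} : Set M)
        simp only [List.map_cons, List.sum_cons, Gate.free, if_neg hc]
        omega

/-! ### The coefficient field -/

theorem exists_field (good : ℂ → Prop) (hgood : ∀ c, good c → IsAlgebraic ℚ c) (ζ : ℂ)
    (hζ : IsIntegral ℚ ζ) (gs : List (Gate ℂ)) :
    ∃ K : IntermediateField ℚ ℂ, FiniteDimensional ℚ K ∧ ζ ∈ K ∧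
      ∀ c i, Gate.scale c i ∈ gs → good c → c ∈ K := by
  induction gs with
  | nil =>
    refine ⟨ℚ⟮ζ⟯, adjoin.finiteDimensional hζ, mem_adjoin_simple_self ℚ ζ, ?_⟩
    intro c i h; simp at h
  | cons g gs ih =>
    obtain ⟨K, hK, hζK, h⟩ := ih
    cases g with
    | add a b =>
      refine ⟨K, hK, hζK, ?_⟩
      intro c i hm hc
      rw [List.mem_cons] at hm
      rcases hm with hm | hm
      · cases hm
      · exact h c i hm hc
    | sub a b =>
      refine ⟨K, hK, hζK, ?_⟩
      intro c i hm hc
      rw [List.mem_cons] at hm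
      rcases hm with hm | hm
      · cases hm
      · exact h c i hm hc
    | scale c0 a =>
      by_cases hc0 : good c0
      · have hint : IsIntegral ℚ c0 := (hgood c0 hc0).isIntegral
        have : FiniteDimensional ℚ ℚ⟮c0⟯ := adjoin.finiteDimensional hint
        refine ⟨K ⊔ ℚ⟮c0⟯, inferInstance, (le_sup_left : K ≤ _) hζK, ?_⟩
        intro c i hm hc
        rw [List.mem_cons] at hm
        rcases hm with hm | hm
        · cases hm
          exact (le_sup_right : ℚ⟮c0⟯ ≤ _) (mem_adjoin_simple_self ℚ c0)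
        · exact (le_sup_left : K ≤ _) (h c i hm hc)
      · refine ⟨K, hK, hζK, ?_⟩
        intro c i hm hc
        rw [List.mem_cons] at hm
        rcases hm with hm | hm
        · cases hm
          exact absurd hc hc0
        · exact h c i hm hc

/-! ### The Fourier matrix -/

theorem dft_unitary {n : ℕ} (hn : 0 < n) {ω : ℂ} (hω : IsPrimitiveRoot ω n) :
    (Matrix.of fun j k : Fin n => ω ^ ((j : ℕ) * (k : ℕ)))ᴴ *
      (Matrix.of fun j k : Fin n => ω ^ ((j : ℕ) * (k : ℕ))) =
      (n : ℂ) • (1 : Matrix (Fin n) (Fin n) ℂ) := by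
  have hnorm : ‖ω‖ = 1 := hω.norm'_eq_one hn.ne'
  have hω0 : ω ≠ 0 := by intro h; rw [h, norm_zero] at hnorm; exact zero_ne_one hnorm
  have hconj : star ω = ω⁻¹ := by
    rw [Complex.star_def, Complex.inv_def, Complex.normSq_eq_norm_sq, hnorm]
    simp
  ext a b
  rw [Matrix.mul_apply]
  simp only [Matrix.conjTranspose_apply, Matrix.of_apply, star_pow, hconj]
  have hterm : ∀ j : Fin n, ω⁻¹ ^ ((j : ℕ) * (a : ℕ)) * ω ^ ((j : ℕ) * (b : ℕ)) =
      (ω⁻¹ ^ (a : ℕ) * ω ^ (b : ℕ)) ^ (j : ℕ) := by
    intro j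
    rw [mul_pow, ← pow_mul, ← pow_mul, mul_comm (a : ℕ), mul_comm (b : ℕ)]
  rw [Finset.sum_congr rfl fun j _ => hterm j,
    Fin.sum_univ_eq_sum_range (fun j => (ω⁻¹ ^ (a : ℕ) * ω ^ (b : ℕ)) ^ j) n]
  by_cases hab : a = b
  · subst hab
    have : ω⁻¹ ^ (a : ℕ) * ω ^ (a : ℕ) = 1 := by
      rw [← mul_pow, inv_mul_cancel₀ hω0, one_pow]
    rw [this]
    simp
  · have hne : ω⁻¹ ^ (a : ℕ) * ω ^ (b : ℕ) ≠ 1 := by
      intro h
      apply hab
      have h1 : ω ^ (a : ℕ) = ω ^ (b : ℕ) := by
        rw [inv_pow] at h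
        field_simp at h
        exact h.symm
      exact Fin.ext (hω.pow_inj a.2 b.2 h1)
    have hpow : (ω⁻¹ ^ (a : ℕ) * ω ^ (b : ℕ)) ^ n = 1 := by
      rw [mul_pow, ← pow_mul, ← pow_mul, mul_comm (a : ℕ), mul_comm (b : ℕ), pow_mul, pow_mul,
        inv_pow, hω.pow_eq_one]
      simp
    have hg := mul_neg_geom_sum (ω⁻¹ ^ (a : ℕ) * ω ^ (b : ℕ)) n
    rw [hpow, sub_self] at hg
    have h2 : ∑ i ∈ Finset.range n, (ω⁻¹ ^ (a : ℕ) * ω ^ (b : ℕ)) ^ i = 0 := by
      rcases mul_eq_zero.mp hg with h3 | h3
      · exact absurd (sub_eq_zero.mp h3).symm hne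
      · exact h3
    rw [h2]
    simp [Matrix.one_apply_ne hab]

/-! ### The circuit computes the rows of the Fourier matrix -/

theorem computes_rows {n : ℕ} {gs : List (Gate ℂ)} {out : Fin n → ℕ} (h : Computes n gs out)
    (j k : Fin n) : (run gs (stdList ℂ n)).getD (out j) 0 k =
      Complex.exp (2 * Real.pi * Complex.I / n) ^ ((j : ℕ) * (k : ℕ)) := by
  let x : Fin n → ℂ := Pi.single k 1
  let Φ : (Fin n → ℂ) →+ ℂ :=
    { toFun := fun v => v k
      map_zero' := rfl
      map_add' := fun _ _ => rfl }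
  have h1 := run_map (RingHom.id ℂ) Φ (fun c v => rfl) gs (stdList ℂ n)
  have h2 : gs.map (Gate.map (RingHom.id ℂ)) = gs := by
    conv_rhs => rw [← List.map_id gs]
    exact List.map_congr_left fun g _ => gate_map_id g
  have h3 : (stdList ℂ n).map Φ = List.ofFn x := by
    rw [stdList, List.map_ofFn]
    congr 1
    ext i
    change (Pi.single i (1 : ℂ) : Fin n → ℂ) k = (Pi.single k (1 : ℂ) : Fin n → ℂ) i
    simp [Pi.single_apply, eq_comm]
  rw [h2, h3] at h1
  have h4 := h x j
  rw [h1] at h4
  have h5 : ((run gs (stdList ℂ n)).map Φ).getD (out j) 0 =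
      Φ ((run gs (stdList ℂ n)).getD (out j) 0) := by
    rw [← map_zero Φ, List.getD_map]
  rw [h5] at h4
  change (run gs (stdList ℂ n)).getD (out j) 0 k = _ at h4
  rw [h4, Finset.sum_eq_single k]
  · simp [x]
  · intro b _ hb
    simp [x, Pi.single_eq_of_ne hb]
  · intro hk; exact absurd (Finset.mem_univ k) hk

theorem tradeoff (n : ℕ) (hn : 0 < n) (gs : List (Gate ℂ)) (out : Fin n → ℕ)
    (hC : Computes n gs out) (good : ℂ → Prop) [DecidablePred good]
    (hgood : ∀ c, good c → IsAlgebraic ℚ c) :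
    ((n : ℝ) - (gs.map (Gate.free good)).sum) / 2 * Real.logb 2 (n + 1) - n ≤
      (gs.map (Gate.cost good)).sum := by
  classical
  obtain ⟨ζ, hζdef⟩ : ∃ ζ : ℂ, ζ = Complex.exp (2 * Real.pi * Complex.I / n) := ⟨_, rfl⟩
  have hprim : IsPrimitiveRoot ζ n := by
    rw [hζdef]; exact Complex.isPrimitiveRoot_exp n hn.ne'
  have hζint : IsIntegral ℚ ζ := (hprim.isIntegral hn).tower_top
  obtain ⟨K, hKfin, hζK, hK⟩ := exists_field good hgood ζ hζint gs
  -- the circuit over `K`
  let f0 : ℂ → K := fun c => if h : good c ∧ c ∈ K then ⟨c, h.2⟩ else 0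
  obtain ⟨gsK, hgsK⟩ : ∃ gsK, gsK = gs.map (Gate.map f0) := ⟨_, rfl⟩
  obtain ⟨AK, hAK⟩ : ∃ AK : Matrix (Fin n) (Fin n) K,
    AK = Matrix.of fun j => (run gsK (stdList K n)).getD (out j) 0 := ⟨_, rfl⟩
  obtain ⟨FK, hFK⟩ : ∃ FK : Matrix (Fin n) (Fin n) K,
    FK = Matrix.of fun j k : Fin n => (⟨ζ, hζK⟩ : K) ^ ((j : ℕ) * (k : ℕ)) := ⟨_, rfl⟩
  -- images under embeddings
  have hrun : ∀ σ : K →+* ℂ, run (gsK.map (Gate.map σ)) (stdList ℂ n) =
      (run gsK (stdList K n)).map (fun v => σ ∘ v) := by
    intro σ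
    let Φ : (Fin n → K) →+ (Fin n → ℂ) :=
      { toFun := fun v => σ ∘ v
        map_zero' := by ext; simp
        map_add' := fun _ _ => by ext; simp }
    have h1 := run_map σ Φ (fun c v => by ext i; simp [Φ]) gsK (stdList K n)
    have h2 : (stdList K n).map Φ = stdList ℂ n := by
      rw [stdList, stdList, List.map_ofFn]
      congr 1
      ext i j
      change σ ((Pi.single i (1 : K) : Fin n → K) j) = (Pi.single i (1 : ℂ) : Fin n → ℂ) j
      by_cases hij : j = i
      · subst hij; simp
      · simp [Pi.single_eq_of_ne hij]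
    rw [h2] at h1
    exact h1
  have hrow : ∀ (σ : K →+* ℂ) (j : Fin n),
      (run (gsK.map (Gate.map σ)) (stdList ℂ n)).getD (out j) 0 = (AK.map σ) j := by
    intro σ j
    rw [hrun, ← (show (σ ∘ (0 : Fin n → K)) = 0 by ext; simp), List.getD_map (f := fun v => σ ∘ v),
      hAK]
    rfl
  -- the rank of the error
  obtain ⟨H, hH1, hH2⟩ := run_diff good gs (stdList ℂ n) (stdList ℂ n) ⊥ rfl (by simp)
  rw [finrank_bot, zero_add] at hH1
  have hkill : gs.map (Gate.map (kill good)) = gsK.map (Gate.map (algebraMap K ℂ)) := by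
    rw [hgsK, List.map_map]
    refine List.map_congr_left fun g hg => ?_
    cases g with
    | add i j => rfl
    | sub i j => rfl
    | scale c i =>
      simp only [Gate.map, Function.comp]
      congr 1
      by_cases hc : good c
      · have hcK := hK c i hg hc
        simp only [kill, if_pos hc, f0, dif_pos (And.intro hc hcK)]
        rfl
      · have : ¬ (good c ∧ c ∈ K) := fun h => hc h.1
        simp only [kill, if_neg hc, f0, dif_neg this, map_zero]
  have hR : ∀ j, (fun k => algebraMap K ℂ ((FK - AK) j k)) ∈ H := by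
    intro j
    have h1 := hH2 (out j)
    rw [hkill, hrow (algebraMap K ℂ) j] at h1
    convert h1 using 1
    ext k
    rw [Pi.sub_apply, computes_rows hC, Matrix.sub_apply, map_sub, hFK, ← hζdef]
    simp only [Matrix.of_apply, map_pow, Matrix.map_apply]
    rfl
  obtain ⟨m, hm, P, V, hPV⟩ := exists_factor (FK - AK) H hH1 hR
  -- the inequality for one embedding
  have hone : ∀ σ : K →ₐ[ℚ] ℂ,
      ((n - (gs.map (Gate.free good)).sum : ℕ) : ℝ) * Real.logb 2 (n + 1) ≤
        2 * n + 2 * ((gsK.map (Gate.map σ)).map (fun g => Real.logb 2 g.growth)).sum := by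
    intro σ
    have hA : AK.map σ = FK.map σ - P.map σ * V.map σ := by
      have h1 : AK = FK - P * V := by rw [← hPV]; abel
      have h2 := congrArg (fun M : Matrix (Fin n) (Fin n) K => M.map σ) h1
      change AK.map σ = (FK - P * V).map σ at h2
      rw [h2]
      ext a b
      simp [Matrix.mul_apply, map_sub, map_sum, map_mul]
    have hF : (FK.map σ)ᴴ * (FK.map σ) = (n : ℂ) • (1 : Matrix (Fin n) (Fin n) ℂ) := by
      have h1 : FK.map σ = Matrix.of fun j k : Fin n => (σ ⟨ζ, hζK⟩) ^ ((j : ℕ) * (k : ℕ)) := by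
        ext a b
        rw [hFK, Matrix.map_apply, Matrix.of_apply, map_pow, Matrix.of_apply]
      rw [h1]
      apply dft_unitary hn
      have h2 : IsPrimitiveRoot (⟨ζ, hζK⟩ : K) n := by
        rw [← IsPrimitiveRoot.map_iff_of_injective (f := algebraMap K ℂ) (algebraMap K ℂ).injective]
        exact hprim
      exact h2.map_of_injective (f := σ) σ.injective
    have hlow := pow_le_norm_det_one_add (AK.map σ) (FK.map σ) (P.map σ) (V.map σ) hA hF
    obtain ⟨D, hD⟩ : ∃ D : ℝ, D = ((gsK.map (Gate.map σ)).map Gate.growth).prod := ⟨_, rfl⟩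
    have hDB : DetBound (run (gsK.map (Gate.map σ)) (stdList ℂ n)) D := by
      have := (detBound_stdList n).run (gsK.map (Gate.map σ)) zero_le_one
      rw [mul_one, ← hD] at this
      exact this
    have hup : ‖(1 + (AK.map σ)ᴴ * (AK.map σ)).det‖ ≤ 4 ^ n * D ^ 2 := by
      apply norm_det_one_add_le
      intro f hf
      apply hDB
      intro i
      rcases hf i with ⟨j, hj⟩ | ⟨j, hj⟩
      · left
        rw [hj]
        apply mem_run
        rw [stdList, List.mem_ofFn]
        exact ⟨j, rfl⟩
      · rw [hj]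
        have := hrow (σ : K →+* ℂ) j
        have h3 := getD_mem_or (run (gsK.map (Gate.map σ)) (stdList ℂ n)) (out j)
        have h4 : (run (gsK.map (Gate.map σ)) (stdList ℂ n)).getD (out j) 0 = (AK.map σ) j := this
        rw [h4] at h3
        exact h3
    have hprod : ∀ l : List (Gate ℂ), 0 < (l.map Gate.growth).prod ∧
        Real.logb 2 ((l.map Gate.growth).prod) = (l.map (fun g => Real.logb 2 g.growth)).sum := by
      intro l
      induction l with
      | nil => simp
      | cons g l ih =>
        have hg : 0 < g.growth := zero_lt_one.trans_le g.one_le_growth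
        refine ⟨?_, ?_⟩
        · rw [List.map_cons, List.prod_cons]; exact mul_pos hg ih.1
        · rw [List.map_cons, List.prod_cons, List.map_cons, List.sum_cons,
            Real.logb_mul hg.ne' ih.1.ne', ih.2]
    have hDpos : 0 < D := by rw [hD]; exact (hprod _).1
    have hle : ((1 : ℝ) + n) ^ (n - (gs.map (Gate.free good)).sum) ≤ 4 ^ n * D ^ 2 := by
      refine le_trans ?_ (hlow.trans hup)
      refine pow_le_pow_right₀ (by linarith [(Nat.cast_nonneg n : (0 : ℝ) ≤ n)]) ?_
      omega
    have hlog := Real.logb_le_logb_of_le (b := 2) (by norm_num) (by positivity) hle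
    rw [Real.logb_pow, Real.logb_mul (by positivity) (by positivity), Real.logb_pow,
      Real.logb_pow, (show (4 : ℝ) = 2 ^ 2 by norm_num), Real.logb_pow,
      Real.logb_self_eq_one (by norm_num), hD, (hprod _).2, add_comm (1 : ℝ)] at hlog
    push_cast at hlog ⊢
    linarith
  -- average over the embeddings
  have hcostK : ∀ l : List (Gate ℂ), (∀ g ∈ l, g ∈ gs) →
      ∑ σ : K →ₐ[ℚ] ℂ, (((l.map (Gate.map f0)).map (Gate.map σ)).map
        (fun g => Real.logb 2 g.growth)).sum =
      (finrank ℚ K : ℝ) * (l.map (Gate.cost good)).sum := by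
    intro l
    induction l with
    | nil => intro _; simp
    | cons g l ih =>
      intro hl
      simp only [List.map_cons, List.sum_cons]
      rw [Finset.sum_add_distrib, ih (fun g' hg' => hl g' (List.mem_cons_of_mem _ hg')), mul_add]
      congr 1
      have hcard : (Finset.univ : Finset (K →ₐ[ℚ] ℂ)).card = finrank ℚ K := by
        rw [Finset.card_univ]; exact AlgHom.card ℚ K ℂ
      cases g with
      | add i j =>
        simp [Gate.map, Gate.growth, Gate.cost, hcard, Finset.sum_const]
      | sub i j =>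
        simp [Gate.map, Gate.growth, Gate.cost, hcard, Finset.sum_const]
      | scale c i =>
        simp only [Gate.map, Gate.growth, Gate.cost]
        by_cases hc : good c
        · have hcK := hK c i (hl _ List.mem_cons_self) hc
          rw [if_pos hc]
          have h1 := sum_logb_embeddings (⟨c, hcK⟩ : K)
          have h2 : f0 c = ⟨c, hcK⟩ := by simp only [f0, dif_pos (And.intro hc hcK)]
          rw [h2]
          exact h1
        · have h2 : f0 c = 0 := by
            have : ¬ (good c ∧ c ∈ K) := fun h => hc h.1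
            simp only [f0, dif_neg this]
          rw [if_neg hc, h2]
          simp
  have hsum : ∑ σ : K →ₐ[ℚ] ℂ,
      ((n - (gs.map (Gate.free good)).sum : ℕ) : ℝ) * Real.logb 2 (n + 1) ≤
      ∑ σ : K →ₐ[ℚ] ℂ,
        (2 * n + 2 * ((gsK.map (Gate.map σ)).map (fun g => Real.logb 2 g.growth)).sum) :=
    Finset.sum_le_sum fun σ _ => hone σ
  have hcard : (Finset.univ : Finset (K →ₐ[ℚ] ℂ)).card = finrank ℚ K := by
    rw [Finset.card_univ]; exact AlgHom.card ℚ K ℂ
  rw [Finset.sum_const, Finset.sum_add_distrib, Finset.sum_const, ← Finset.mul_sum, hcard,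
    hgsK, hcostK gs (fun _ h => h), nsmul_eq_mul, nsmul_eq_mul] at hsum
  have hdpos : (0 : ℝ) < finrank ℚ K := by exact_mod_cast (Module.finrank_pos (R := ℚ) (M := K))
  have h5 : ((n - (gs.map (Gate.free good)).sum : ℕ) : ℝ) * Real.logb 2 (n + 1) ≤
      2 * n + 2 * (gs.map (Gate.cost good)).sum := by
    have : (finrank ℚ K : ℝ) * (((n - (gs.map (Gate.free good)).sum : ℕ) : ℝ) *
        Real.logb 2 (n + 1)) ≤
      (finrank ℚ K : ℝ) * (2 * n + 2 * (gs.map (Gate.cost good)).sum) := by
      rw [mul_add]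
      linarith
    exact le_of_mul_le_mul_left this hdpos
  have h6 : ((n : ℝ) - (gs.map (Gate.free good)).sum) ≤
      ((n - (gs.map (Gate.free good)).sum : ℕ) : ℝ) := by
    have h7 : n ≤ (n - (gs.map (Gate.free good)).sum) + (gs.map (Gate.free good)).sum := by omega
    have h8 : (n : ℝ) ≤ ((n - (gs.map (Gate.free good)).sum : ℕ) : ℝ) +
        ((gs.map (Gate.free good)).sum : ℕ) := by exact_mod_cast h7
    linarith
  have h9 : 0 ≤ Real.logb 2 ((n : ℝ) + 1) :=
    Real.logb_nonneg (by norm_num) (by linarith [(Nat.cast_nonneg n : (0 : ℝ) ≤ n)])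
  have h10 := mul_le_mul_of_nonneg_right h6 h9
  linarith

end Vale.Agent.P344B
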